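import Mathlib
import Vale.Agent.P139.Prob

/-! Defocusing Schrödinger equations with smooth Gaussian data survive any given time with positive
probability, and with probability tending to one as the regularity exponent grows. -/

open Vale.Agent.P139
open scoped ENNReal

namespace Vale.Agent.Results.P139.LongTimeInProbability

theorem result :
    ∀ (d m k : ℕ) (T : ℝ), 0 ≤ T →
      (∀ α : ℝ, (d : ℝ) + k < α → ∃ A : Set (Freq d → ℂ), MeasurableSet A ∧
        0 < noise d A ∧ ∀ g ∈ A, SolvesUpTo m k T (datum α g)) ∧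
      ∀ ε : ℝ, 0 < ε → ∃ α₀ : ℝ, ∀ α ≥ α₀, ∃ A : Set (Freq d → ℂ), MeasurableSet A ∧
        1 - ENNReal.ofReal ε ≤ noise d A ∧ ∀ g ∈ A, SolvesUpTo m k T (datum α g) :=
  fun _ m k _ hT => ⟨fun _ hα => exists_positive m k hT hα, fun _ hε => exists_high m k hT hε⟩

end Vale.Agent.Results.P139.LongTimeInProbability
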